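import Vale.Agent.P052.Data

/-!
# Kernel evaluations
-/

namespace Vale.Agent.P052

set_option maxRecDepth 100000

theorem ok_z : free 100 4 maskZ = true := by decide +kernel

theorem ok_p0 : allC 64 (fun i => allC i (fun j =>
    pairChk (Nat.add 0 i) (Nat.add 0 j))) = true := by decide +kernel

theorem ok_p1 : allC 64 (fun i => allC i (fun j =>
    pairChk (Nat.add 64 i) (Nat.add 64 j))) = true := by decide +kernel

theorem ok_p2 : allC 64 (fun i => allC i (fun j =>
    pairChk (Nat.add 128 i) (Nat.add 128 j))) = true := by decide +kernel

theorem ok_p3 : allC 64 (fun i => allC i (fun j =>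
    pairChk (Nat.add 192 i) (Nat.add 192 j))) = true := by decide +kernel

theorem ok_p4 : allC 64 (fun i => allC i (fun j =>
    pairChk (Nat.add 256 i) (Nat.add 256 j))) = true := by decide +kernel

theorem ok_w : allC 256 (fun x => allC x (fun y => chkW x y)) = true := by decide +kernel

theorem ok_f : allC 256 (fun x => allC 64 (fun r => chkF x r)) = true := by decide +kernel

theorem ok_i : allC 64 (fun x => allC 64 (fun r => chkI x r)) = true := by decide +kernel

end Vale.Agent.P052
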