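import Vale.Agent.P052.Checks

/-!
# Soundness of the clique search
-/

namespace Vale.Agent.P052

theorem allC_true (n : ℕ) (f : ℕ → Bool) (h : allC n f = true) : ∀ k, k < n → f k = true := by
  induction n with
  | zero => intro k hk; omega
  | succ n ih =>
    intro k hk
    have h' : (Bool.rec false (allC n f) (f n) : Bool) = true := h
    cases hf : f n with
    | false => rw [hf] at h'; exact absurd h' (by simp)
    | true =>
      rw [hf] at h'
      rcases Nat.lt_succ_iff_lt_or_eq.mp hk with h1 | h1
      · exact ih h' k h1
      · rw [h1]; exact hf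

/-- the adjacency relation -/
def Adj (x y : ℕ) : Prop := bitA x y = 1

theorem bitA_eq (x y : ℕ) : bitA x y = (rowR (2 ^ x) >>> y) % 2 := rfl

theorem adj_iff_testBit (x y : ℕ) : Adj x y ↔ (rowR (2 ^ x)).testBit y = true := by
  unfold Adj
  rw [bitA_eq, Nat.testBit_eq_decide_div_mod_eq, Nat.shiftRight_eq_div_pow]
  simp

theorem bitA_lt (x y : ℕ) : bitA x y = 0 ∨ bitA x y = 1 := by
  rw [bitA_eq]; omega

theorem lowbit (c : ℕ) (hc : c ≠ 0) : ∃ v, c.testBit v = true ∧ c - dropLow c = 2 ^ v ∧
    ∀ w, (dropLow c).testBit w = (c.testBit w && decide (w ≠ v)) := by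
  obtain ⟨v, m, hm, rfl⟩ := Nat.exists_eq_two_pow_mul_odd hc
  obtain ⟨r, rfl⟩ := hm
  refine ⟨v, ?_, ?_, ?_⟩
  all_goals
    have hpos : 0 < 2 ^ v := Nat.pos_of_ne_zero (by positivity)
    have e1 : 2 ^ v * (2 * r + 1) = 2 ^ (v + 1) * r + 2 ^ v := by ring
    have e2 : 2 ^ v * (2 * r + 1) - 1 = 2 ^ (v + 1) * r + (2 ^ v - 1) := by
      rw [e1]; omega
    have l1 : 2 ^ v < 2 ^ (v + 1) := Nat.pow_lt_pow_right (by norm_num) (by omega)
    have l2 : 2 ^ v - 1 < 2 ^ (v + 1) := by omega
    have key : ∀ w, (dropLow (2 ^ v * (2 * r + 1))).testBit w =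
        ((2 ^ v * (2 * r + 1)).testBit w && decide (w ≠ v)) := by
      intro w
      have e3 : dropLow (2 ^ v * (2 * r + 1)) =
          (2 ^ v * (2 * r + 1)) &&& (2 ^ v * (2 * r + 1) - 1) := rfl
      rw [e3, Nat.testBit_and, e2, e1, Nat.testBit_two_pow_mul_add _ l1,
        Nat.testBit_two_pow_mul_add _ l2]
      by_cases hw : w < v + 1
      · simp only [hw, if_true]
        rw [Nat.testBit_two_pow_sub_one, Nat.testBit_two_pow]
        by_cases h2 : w = v
        · subst h2; simp
        · have : ¬ v = w := fun h => h2 h.symm
          simp [this]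
      · simp only [hw, if_false]
        have : w ≠ v := by omega
        simp [this]
  · rw [e1, Nat.testBit_two_pow_mul_add _ l1]
    simp
  · have e4 : dropLow (2 ^ v * (2 * r + 1)) = 2 ^ (v + 1) * r := by
      apply Nat.eq_of_testBit_eq
      intro w
      rw [key w, e1, Nat.testBit_two_pow_mul_add _ l1]
      have := Nat.testBit_two_pow_mul_add r (b := 0) (i := v + 1) (by positivity) w
      rw [Nat.add_zero] at this
      rw [this]
      by_cases hw : w < v + 1
      · simp only [hw, if_true]
        rw [Nat.testBit_two_pow]
        by_cases h2 : w = v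
        · subst h2; simp
        · have : ¬ v = w := fun h => h2 h.symm
          simp [this]
      · simp only [hw, if_false]
        have : w ≠ v := by omega
        simp [this]
    rw [e4, e1]; omega
  · exact key

theorem free_sound : ∀ (n k cand : ℕ), free n k cand = true → ∀ s : Finset ℕ,
    (∀ v ∈ s, cand.testBit v = true) → (∀ v ∈ s, ∀ w ∈ s, v ≠ w → Adj v w) → s.card ≤ k := by
  intro n
  induction n with
  | zero =>
    intro k cand h
    exact absurd h (by simp [free])
  | succ n ih =>
    intro k cand h s hs hc
    by_cases h0 : cand = 0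
    · have : s = ∅ := by
        apply Finset.eq_empty_of_forall_notMem
        intro v hv
        have := hs v hv
        rw [h0] at this
        simp at this
      rw [this]; simp
    · have hb : Nat.beq cand 0 = false := by
        cases hh : Nat.beq cand 0 with
        | false => rfl
        | true => exact absurd (Nat.eq_of_beq_eq_true hh) h0
      cases k with
      | zero =>
        have h' : Nat.beq cand 0 = true := h
        rw [hb] at h'
        exact absurd h' (by simp)
      | succ k =>
        have h' : (Bool.rec
            (Bool.rec false (free n (Nat.succ k) (dropLow cand))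
              (free n k (Nat.land cand (rowR (Nat.sub cand (dropLow cand))))))
            true
            (Nat.beq cand 0) : Bool) = true := h
        rw [hb] at h'
        have h'' : (Bool.rec false (free n (Nat.succ k) (dropLow cand))
              (free n k (Nat.land cand (rowR (Nat.sub cand (dropLow cand))))) : Bool) = true := h'
        cases hB : free n k (Nat.land cand (rowR (Nat.sub cand (dropLow cand)))) with
        | false => rw [hB] at h''; exact absurd h'' (by simp)
        | true =>
          rw [hB] at h''
          have hA : free n (k + 1) (dropLow cand) = true := h''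
          obtain ⟨v, hv1, hv2, hv3⟩ := lowbit cand h0
          have hv2' : Nat.sub cand (dropLow cand) = 2 ^ v := hv2
          rw [hv2'] at hB
          have hB' : free n k (cand &&& rowR (2 ^ v)) = true := hB
          by_cases hvs : v ∈ s
          · have h1 : (s.erase v).card ≤ k := by
              apply ih k _ hB' (s.erase v)
              · intro w hw
                rw [Nat.testBit_and]
                have hw' := Finset.mem_of_mem_erase hw
                have hne := Finset.ne_of_mem_erase hw
                rw [hs w hw', (adj_iff_testBit v w).mp (hc v hvs w hw' (Ne.symm hne))]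
                rfl
              · intro a ha b hb2 hab
                exact hc a (Finset.mem_of_mem_erase ha) b (Finset.mem_of_mem_erase hb2) hab
            have h2 := Finset.card_erase_of_mem hvs
            have h3 : 0 < s.card := Finset.card_pos.mpr ⟨v, hvs⟩
            omega
          · apply ih (k + 1) _ hA s
            · intro w hw
              rw [hv3 w, hs w hw]
              have : w ≠ v := fun h => hvs (h ▸ hw)
              simp [this]
            · exact hc

theorem pair_free (x y : ℕ) (h : pairChk x y = true) (ha : Adj x y) :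
    free 40 3 (rowR (2 ^ x) &&& rowR (2 ^ y)) = true := by
  have h' : (Bool.rec true (free 40 3 (Nat.land (rowR (Nat.pow 2 x)) (rowR (Nat.pow 2 y))))
    (Nat.beq (bitA x y) 1) : Bool) = true := h
  have hb : Nat.beq (bitA x y) 1 = true := by
    rw [show bitA x y = 1 from ha]; rfl
  rw [hb] at h'
  exact h'

theorem ok_pair (x y : ℕ) (hx : x < 320) (hy : y < x) (hxy : x / 64 = y / 64) :
    pairChk x y = true := by
  have hq : x / 64 < 5 := by omega
  obtain ⟨q, hq'⟩ : ∃ q, x / 64 = q := ⟨_, rfl⟩
  rw [hq'] at hq
  have ex : x = 64 * q + x % 64 := by omega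
  have ey : y = 64 * q + y % 64 := by omega
  have hi : x % 64 < 64 := Nat.mod_lt _ (by norm_num)
  have hj : y % 64 < x % 64 := by omega
  have main : allC 64 (fun i => allC i (fun j =>
      pairChk (Nat.add (64 * q) i) (Nat.add (64 * q) j))) = true := by
    interval_cases q
    · exact ok_p0
    · exact ok_p1
    · exact ok_p2
    · exact ok_p3
    · exact ok_p4
  have h1 := allC_true _ _ main _ hi
  have h2 := allC_true _ _ h1 _ hj
  rw [ex, ey]
  exact h2

/-- cliques have at most five vertices. -/
theorem clique_five (s : Finset ℕ) (hs : ∀ v ∈ s, v < 320)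
    (hc : ∀ v ∈ s, ∀ w ∈ s, v ≠ w → Adj v w) : s.card ≤ 5 := by
  by_contra hcon
  push Not at hcon
  obtain ⟨x, hx, y, hy, hne, hxy⟩ := Finset.exists_ne_map_eq_of_card_lt_of_maps_to
    (s := s) (t := Finset.range 5) (by rw [Finset.card_range]; exact hcon) (f := fun v => v / 64)
    (by intro v hv; have := hs v hv; simp; omega)
  have aux : ∀ a b, a ∈ s → b ∈ s → b < a → a / 64 = b / 64 → False := by
    intro a b ha hb hab hdiv
    have h1 := pair_free a b (ok_pair a b (hs a ha) hab hdiv) (hc a ha b hb (by omega))
    have h2 : ((s.erase a).erase b).card ≤ 3 := by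
      apply free_sound _ _ _ h1
      · intro w hw
        have hw1 := Finset.mem_of_mem_erase hw
        have hwb := Finset.ne_of_mem_erase hw
        have hws := Finset.mem_of_mem_erase hw1
        have hwa := Finset.ne_of_mem_erase hw1
        rw [Nat.testBit_and, (adj_iff_testBit a w).mp (hc a ha w hws (Ne.symm hwa)),
          (adj_iff_testBit b w).mp (hc b hb w hws (Ne.symm hwb))]
        rfl
      · intro u hu w hw huw
        exact hc u (Finset.mem_of_mem_erase (Finset.mem_of_mem_erase hu)) w
          (Finset.mem_of_mem_erase (Finset.mem_of_mem_erase hw)) huw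
    have h3 : b ∈ s.erase a := Finset.mem_erase.mpr ⟨by omega, hb⟩
    have h4 := Finset.card_erase_of_mem h3
    have h5 := Finset.card_erase_of_mem ha
    omega
  rcases lt_or_gt_of_ne hne with h | h
  · exact aux y x hy hx h hxy.symm
  · exact aux x y hx hy h hxy

/-- cliques inside `maskZ` have at most four vertices. -/
theorem clique_four (s : Finset ℕ) (hs : ∀ v ∈ s, maskZ.testBit v = true)
    (hc : ∀ v ∈ s, ∀ w ∈ s, v ≠ w → Adj v w) : s.card ≤ 4 :=
  free_sound _ _ _ ok_z s hs hc

end Vale.Agent.P052
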