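import Vale.Agent.P052.Points

/-!
# The configuration in `ℝ⁶³`
-/

namespace Vale.Agent.P052

open Finset

attribute [local irreducible] bitA bitZ cor ca dot

/-- the scale of the extra point, a root of `13 s² + 2 s = 17`. -/
noncomputable def sc : ℝ := (-1 + Real.sqrt 222) / 13

theorem sc_eq : 13 * sc ^ 2 + 2 * sc = 17 := by
  unfold sc
  have h : Real.sqrt 222 ^ 2 = 222 := Real.sq_sqrt (by norm_num)
  nlinarith [h]

theorem sc_pos : 0 < sc := by
  unfold sc
  have h : 1 < Real.sqrt 222 := by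
    rw [show (1 : ℝ) = Real.sqrt 1 by simp]
    exact Real.sqrt_lt_sqrt (by norm_num) (by norm_num)
  have : 0 < -1 + Real.sqrt 222 := by linarith
  positivity

/-- the points, in coordinates indexed by `Ix`. -/
noncomputable def pt (x : ℕ) : EuclideanSpace ℝ Ix := WithLp.toLp 2 (fun k => (cor x k : ℝ))

/-- the extra point. -/
noncomputable def zp : EuclideanSpace ℝ Ix := WithLp.toLp 2 (fun k => sc * (ca k : ℝ))

theorem dist_pt (x y : ℕ) (hx : x < 320) (hy : y < 320) (hne : x ≠ y) :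
    dist (pt x) (pt y) = Real.sqrt (128 - 32 * (bitA x y : ℝ)) := by
  rw [EuclideanSpace.dist_eq]
  congr 1
  have e1 : ∑ k : Ix, dist ((pt x).ofLp k) ((pt y).ofLp k) ^ 2 =
      ((∑ k : Ix, cor x k * cor x k : ℤ) : ℝ) + ((∑ k : Ix, cor y k * cor y k : ℤ) : ℝ) -
        2 * ((∑ k : Ix, cor x k * cor y k : ℤ) : ℝ) := by
    push_cast
    rw [← Finset.sum_add_distrib, Finset.mul_sum, ← Finset.sum_sub_distrib]
    apply Finset.sum_congr rfl
    intro k _
    rw [Real.dist_eq, sq_abs]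
    simp only [pt]
    ring
  have h1 := dot_self x hx
  have h2 := dot_self y hy
  have h3 := dot_ne x y hx hy hne
  unfold dot at h1 h2 h3
  rw [e1, h1, h2, h3]
  push_cast
  ring

theorem dist_zp (x : ℕ) (hx : x < 320) :
    dist zp (pt x) = Real.sqrt (128 - 32 * sc * (bitZ x : ℝ)) := by
  rw [EuclideanSpace.dist_eq]
  congr 1
  have e1 : ∑ k : Ix, dist (zp.ofLp k) ((pt x).ofLp k) ^ 2 =
      sc ^ 2 * ((∑ k : Ix, ca k * ca k : ℤ) : ℝ) + ((∑ k : Ix, cor x k * cor x k : ℤ) : ℝ) -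
        2 * sc * ((∑ k : Ix, ca k * cor x k : ℤ) : ℝ) := by
    push_cast
    rw [Finset.mul_sum, ← Finset.sum_add_distrib, Finset.mul_sum, ← Finset.sum_sub_distrib]
    apply Finset.sum_congr rfl
    intro k _
    rw [Real.dist_eq, sq_abs]
    simp only [pt, zp]
    ring
  have h1 := dot_self x hx
  have h2 := ca_dot x hx
  unfold dot at h1
  rw [e1, h1, h2, ca_sq]
  push_cast
  linear_combination 4 * sc_eq

theorem bitZ_iff (x : ℕ) : maskZ.testBit x = true ↔ bitZ x = 1 := by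
  have : bitZ x = (maskZ >>> x) % 2 := by unfold bitZ; rfl
  rw [this, Nat.testBit_eq_decide_div_mod_eq, Nat.shiftRight_eq_div_pow]
  simp

theorem bitZ_cases (x : ℕ) : bitZ x = 0 ∨ bitZ x = 1 := by
  have : bitZ x = (maskZ >>> x) % 2 := by unfold bitZ; rfl
  omega

theorem card_Ix : Fintype.card Ix = 63 := by simp [Ix]

/-- the configuration. -/
theorem exists_config : ∃ (q : Fin 320 → EuclideanSpace ℝ (Fin 63)) (z : EuclideanSpace ℝ (Fin 63)),
    (∀ x y : Fin 320, x ≠ y → ¬ Adj x y → dist (q x) (q y) = Real.sqrt 128) ∧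
    (∀ x y : Fin 320, dist (q x) (q y) ≤ Real.sqrt 128) ∧
    (∀ x : Fin 320, ¬ maskZ.testBit x = true → dist z (q x) = Real.sqrt 128) ∧
    (∀ x : Fin 320, dist z (q x) ≤ Real.sqrt 128) := by
  let e : Ix ≃ Fin 63 := Fintype.equivFinOfCardEq card_Ix
  let L := LinearIsometryEquiv.piLpCongrLeft 2 ℝ ℝ e
  refine ⟨fun x => L (pt x), L zp, ?_, ?_, ?_, ?_⟩
  · intro x y hxy hna
    rw [LinearIsometryEquiv.dist_map, dist_pt x y x.2 y.2 (fun h => hxy (Fin.ext h))]
    rcases bitA_lt x y with h | h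
    · rw [h]; norm_num
    · exact absurd h hna
  · intro x y
    rw [LinearIsometryEquiv.dist_map]
    by_cases hxy : x = y
    · rw [hxy, dist_self]; exact Real.sqrt_nonneg _
    · rw [dist_pt x y x.2 y.2 (fun h => hxy (Fin.ext h))]
      apply Real.sqrt_le_sqrt
      have : (0 : ℝ) ≤ (bitA x y : ℝ) := Nat.cast_nonneg _
      linarith
  · intro x hx
    rw [LinearIsometryEquiv.dist_map, dist_zp x x.2]
    rcases bitZ_cases x with h | h
    · rw [h]; norm_num
    · exact absurd ((bitZ_iff x).mpr h) hx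
  · intro x
    rw [LinearIsometryEquiv.dist_map, dist_zp x x.2]
    apply Real.sqrt_le_sqrt
    have h1 : (0 : ℝ) ≤ (bitZ x : ℝ) := Nat.cast_nonneg _
    have h2 := sc_pos
    have : 0 ≤ 32 * sc * (bitZ x : ℝ) := by positivity
    linarith

/-- cliques of `Fin 320`. -/
theorem clique_five_fin (s : Finset (Fin 320))
    (h : ∀ x ∈ s, ∀ y ∈ s, x ≠ y → Adj (x : ℕ) (y : ℕ)) : s.card ≤ 5 := by
  have := clique_five (s.map Fin.valEmbedding)
    (by intro v hv; rw [Finset.mem_map] at hv; obtain ⟨a, _, rfl⟩ := hv; exact a.2)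
    (by
      intro v hv w hw hvw
      rw [Finset.mem_map] at hv hw
      obtain ⟨a, ha, rfl⟩ := hv
      obtain ⟨b, hb, rfl⟩ := hw
      exact h a ha b hb (fun e => hvw (by rw [e])))
  rwa [Finset.card_map] at this

theorem clique_four_fin (s : Finset (Fin 320)) (hN : ∀ x ∈ s, maskZ.testBit (x : ℕ) = true)
    (h : ∀ x ∈ s, ∀ y ∈ s, x ≠ y → Adj (x : ℕ) (y : ℕ)) : s.card ≤ 4 := by
  have := clique_four (s.map Fin.valEmbedding)
    (by intro v hv; rw [Finset.mem_map] at hv; obtain ⟨a, ha, rfl⟩ := hv; exact hN a ha)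
    (by
      intro v hv w hw hvw
      rw [Finset.mem_map] at hv hw
      obtain ⟨a, ha, rfl⟩ := hv
      obtain ⟨b, hb, rfl⟩ := hw
      exact h a ha b hb (fun e => hvw (by rw [e])))
  rwa [Finset.card_map] at this

end Vale.Agent.P052
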