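import Mathlib

/-!
# The covering argument
-/

namespace Vale.Agent.P052

open Finset

/-- If 320 points and one further point have the stated distances, every cover by sets in which
all distances are smaller than `D` uses at least 65 sets. -/
theorem cover_bound {E : Type*} [PseudoMetricSpace E] (q : Fin 320 → E) (z : E) (D : ℝ)
    (adj : Fin 320 → Fin 320 → Prop) (N : Fin 320 → Prop)
    (hfar : ∀ x y, x ≠ y → ¬ adj x y → dist (q x) (q y) = D)
    (hzfar : ∀ x, ¬ N x → dist z (q x) = D)
    (h5 : ∀ s : Finset (Fin 320), (∀ x ∈ s, ∀ y ∈ s, x ≠ y → adj x y) → s.card ≤ 5)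
    (h4 : ∀ s : Finset (Fin 320), (∀ x ∈ s, N x) → (∀ x ∈ s, ∀ y ∈ s, x ≠ y → adj x y) →
      s.card ≤ 4)
    (k : ℕ) (P : Fin k → Set E) (hz : ∃ i, z ∈ P i) (hq : ∀ x, ∃ i, q x ∈ P i)
    (hd : ∀ i, ∀ a ∈ P i, ∀ b ∈ P i, dist a b < D) : 65 ≤ k := by
  classical
  obtain ⟨i₀, hi₀⟩ := hz
  choose c hc using hq
  have hfib5 : ∀ i, (univ.filter (fun x => c x = i)).card ≤ 5 := by
    intro i
    apply h5
    intro x hx y hy hxy
    by_contra hna
    have h1 := hfar x y hxy hna
    simp only [mem_filter, mem_univ, true_and] at hx hy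
    have h2 := hd i (q x) (hx ▸ hc x) (q y) (hy ▸ hc y)
    exact absurd h2 (by rw [h1]; exact lt_irrefl _)
  have hfib4 : (univ.filter (fun x => c x = i₀)).card ≤ 4 := by
    apply h4
    · intro x hx
      by_contra hna
      have h1 := hzfar x hna
      simp only [mem_filter, mem_univ, true_and] at hx
      have h2 := hd i₀ z hi₀ (q x) (hx ▸ hc x)
      exact absurd h2 (by rw [h1]; exact lt_irrefl _)
    · intro x hx y hy hxy
      by_contra hna
      have h1 := hfar x y hxy hna
      simp only [mem_filter, mem_univ, true_and] at hx hy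
      have h2 := hd i₀ (q x) (hx ▸ hc x) (q y) (hy ▸ hc y)
      exact absurd h2 (by rw [h1]; exact lt_irrefl _)
  have hsum : (univ : Finset (Fin 320)).card = ∑ i : Fin k, (univ.filter (fun x => c x = i)).card :=
    Finset.card_eq_sum_card_fiberwise (fun x _ => by simp)
  rw [Finset.card_univ, Fintype.card_fin] at hsum
  rw [← Finset.add_sum_erase _ _ (mem_univ i₀)] at hsum
  have hrest : ∑ i ∈ univ.erase i₀, (univ.filter (fun x => c x = i)).card
      ≤ ∑ _i ∈ (univ : Finset (Fin k)).erase i₀, 5 := Finset.sum_le_sum (fun i _ => hfib5 i)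
  rw [Finset.sum_const, Finset.card_erase_of_mem (mem_univ _), Finset.card_univ, Fintype.card_fin,
    smul_eq_mul] at hrest
  omega

end Vale.Agent.P052
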