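import Vale.Agent.P052.Geom

/-!
# Inner products of the 320 points
-/

namespace Vale.Agent.P052

open Finset

theorem rec_and {a b : Bool} (h : (Bool.rec false a b : Bool) = true) : b = true ∧ a = true := by
  cases b with
  | false => exact absurd h (by simp)
  | true => exact ⟨rfl, h⟩

theorem beq_rec {α : Type} (a b : ℕ) (u v : α) :
    (Bool.rec u v (Nat.beq a b) : α) = if a = b then v else u := by
  by_cases h : a = b
  · have : Nat.beq a b = true := by rw [h]; exact Nat.beq_refl b
    rw [this, if_pos h]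
  · have : Nat.beq a b = false := by
      cases hh : Nat.beq a b with
      | false => rfl
      | true => exact absurd (Nat.eq_of_beq_eq_true hh) h
    rw [this, if_neg h]

theorem agr_zero : agr 16 0 = 16 := by decide

attribute [local irreducible] agr bitA wd sym

theorem off_eq (x y : ℕ) : off x y =
    if x / 64 = y / 64 then (if x / 16 = y / 16 then 0 else 16) else 12 := by
  unfold off
  rw [beq_rec, beq_rec]
  rfl

theorem chkW_spec (x y : ℕ) (hx : x < 256) (hy : y < x) :
    bitA x y = bitA y x ∧ 4 * agr 16 (wd x ^^^ wd y) = off x y + 16 * bitA x y := by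
  have h : chkW x y = true := allC_true _ _ (allC_true _ _ ok_w x hx) y hy
  unfold chkW at h
  obtain ⟨h1, h2⟩ := rec_and h
  exact ⟨Nat.eq_of_beq_eq_true h2, Nat.eq_of_beq_eq_true h1⟩

theorem chkF_spec (x y : ℕ) (hx : x < 256) (hy : 256 ≤ y) (hy' : y < 320) :
    bitA x y = bitA y x ∧ bitA x y = if sym x ((y - 256) / 4) = y % 4 then 1 else 0 := by
  have hr : y - 256 < 64 := by omega
  have h : chkF x (y - 256) = true := allC_true _ _ (allC_true _ _ ok_f x hx) (y - 256) hr
  unfold chkF at h
  have e : Nat.add 256 (y - 256) = y := by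
    change 256 + (y - 256) = y
    omega
  obtain ⟨h1, h2⟩ := rec_and h
  rw [e] at h1 h2
  refine ⟨Nat.eq_of_beq_eq_true h2, ?_⟩
  rw [Nat.eq_of_beq_eq_true h1, beq_rec]
  have e2 : Nat.mod (y - 256) 4 = y % 4 := by
    change (y - 256) % 4 = y % 4
    omega
  rw [e2]
  rfl

theorem chkI_raw (r t : ℕ) (hr : r < 64) (ht : t < 64) :
    bitA (256 + r) (256 + t) = if r / 16 = t / 16 then (if r / 4 = t / 4 then 0 else 1) else 0 := by
  have h' : chkI r t = true := allC_true _ _ (allC_true _ _ ok_i r hr) t ht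
  unfold chkI at h'
  have h2 := Nat.eq_of_beq_eq_true h'
  rw [beq_rec, beq_rec] at h2
  exact h2

theorem chkI_spec (x y : ℕ) (hx : 256 ≤ x) (hx' : x < 320) (hy : 256 ≤ y) (hy' : y < 320) :
    bitA x y = if x / 16 = y / 16 then (if x / 4 = y / 4 then 0 else 1) else 0 := by
  obtain ⟨r, rfl⟩ := Nat.exists_eq_add_of_le hx
  obtain ⟨t, rfl⟩ := Nat.exists_eq_add_of_le hy
  have hr : r < 64 := by omega
  have ht : t < 64 := by omega
  rw [chkI_raw r t hr ht]
  have a1 : (256 + r) / 16 = (256 + t) / 16 ↔ r / 16 = t / 16 := by omega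
  have a2 : (256 + r) / 4 = (256 + t) / 4 ↔ r / 4 = t / 4 := by omega
  simp only [a1, a2]

/-- inner product of the points `x` and `y`. -/
def dot (x y : ℕ) : ℤ := ∑ k : Ix, cor x k * cor y k

theorem dot_comm (x y : ℕ) : dot x y = dot y x := by
  unfold dot
  exact Finset.sum_congr rfl (fun k _ => mul_comm _ _)

theorem dot_ww (x y : ℕ) (hx : x < 256) (hy : y < x) :
    dot x y = 16 * (bitA x y : ℤ) - 4 := by
  obtain ⟨-, h⟩ := chkW_spec x y hx hy
  have h' : 4 * (agr 16 (wd x ^^^ wd y) : ℤ) = (off x y : ℤ) + 16 * (bitA x y : ℤ) := by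
    exact_mod_cast h
  unfold dot
  rw [sum_split, left_sum_ww x y hx (by omega), right_sum x y (by omega), h', off_eq]
  by_cases h1 : x / 64 = y / 64
  · by_cases h2 : x / 16 = y / 16
    · have h3 : (x / 16) % 4 = (y / 16) % 4 := by rw [h2]
      simp only [h1, h2, if_true]
      push_cast
      ring
    · have h3 : ¬ (x / 16) % 4 = (y / 16) % 4 := by omega
      simp only [h1, h2, h3, if_true, if_false]
      push_cast
      ring
  · simp only [h1, if_false]
    push_cast
    ring

theorem dot_wf (x y : ℕ) (hx : x < 256) (hy : 256 ≤ y) (hy' : y < 320) :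
    dot x y = 16 * (bitA x y : ℤ) - 4 := by
  obtain ⟨-, h⟩ := chkF_spec x y hx hy hy'
  unfold dot
  rw [sum_split, left_sum_wf x y hx hy hy', right_sum x y (by omega), h]
  have h1 : ¬ x / 64 = y / 64 := by omega
  by_cases h2 : sym x ((y - 256) / 4) = y % 4
  · simp [h1, h2]
  · simp [h1, h2]

theorem dot_ff (x y : ℕ) (hx : 256 ≤ x) (hx' : x < 320) (hy : 256 ≤ y) (hy' : y < 320)
    (hne : x ≠ y) : dot x y = 16 * (bitA x y : ℤ) - 4 := by
  have h := chkI_spec x y hx hx' hy hy'
  unfold dot
  rw [sum_split, left_sum_ff x y hx hx' hy, right_sum x y (by omega), h]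
  have h1 : x / 64 = y / 64 := by omega
  by_cases h2 : x / 16 = y / 16
  · have h3 : (x / 16) % 4 = (y / 16) % 4 := by rw [h2]
    by_cases h4 : x / 4 = y / 4
    · have h5 : (x - 256) / 4 = (y - 256) / 4 := by omega
      have h6 : ¬ x % 4 = y % 4 := by omega
      simp only [h1, h2, h4, h5, h6, if_true, if_false]
      norm_num
    · have h5 : ¬ (x - 256) / 4 = (y - 256) / 4 := by omega
      simp only [h1, h2, h4, h5, if_true, if_false]
      norm_num
  · have h3 : ¬ (x / 16) % 4 = (y / 16) % 4 := by omega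
    have h5 : ¬ (x - 256) / 4 = (y - 256) / 4 := by omega
    simp only [h1, h2, h3, h5, if_true, if_false]
    norm_num

theorem dot_ne (x y : ℕ) (hx : x < 320) (hy : y < 320) (hne : x ≠ y) :
    dot x y = 16 * (bitA x y : ℤ) - 4 := by
  by_cases h1 : x < 256
  · by_cases h2 : y < 256
    · rcases lt_or_gt_of_ne hne with h | h
      · rw [dot_comm, dot_ww y x h2 h, (chkW_spec y x h2 h).1]
      · exact dot_ww x y h1 h
    · exact dot_wf x y h1 (by omega) hy
  · by_cases h2 : y < 256
    · rw [dot_comm, dot_wf y x h2 (by omega) hx, (chkF_spec y x h2 (by omega) hx).1]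
    · exact dot_ff x y (by omega) hx (by omega) hy hne

theorem dot_self (x : ℕ) (hx : x < 320) : dot x x = 60 := by
  unfold dot
  rw [sum_split, right_sum x x hx]
  by_cases h1 : x < 256
  · rw [left_sum_ww x x h1 h1, Nat.xor_self]
    rw [agr_zero]
    norm_num
  · rw [left_sum_ff x x (by omega) hx (by omega)]
    norm_num

theorem adj_symm (x y : ℕ) (hx : x < 320) (hy : y < 320) (hne : x ≠ y) (h : Adj x y) :
    Adj y x := by
  have h1 := dot_ne x y hx hy hne
  have h2 := dot_ne y x hy hx (Ne.symm hne)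
  rw [dot_comm y x, h1] at h2
  unfold Adj at *
  omega

end Vale.Agent.P052
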