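import Vale.Agent.P052.Clique

/-!
# The points

Integer coordinates of the 320 points of `ℝ⁶³` and their inner products.
-/

namespace Vale.Agent.P052

open Finset

/-- index set with 63 elements -/
abbrev Ix : Type := (Fin 16 × Fin 3) ⊕ (Fin 5 × Fin 3)

/-- coordinate `c` of the vertex `t` of the standard tetrahedron. -/
def sg (t c : ℕ) : ℤ := if (t &&& (c + 1)) = 1 ∨ (t &&& (c + 1)) = 2 then -1 else 1

theorem sg_dot : ∀ t < 4, ∀ t' < 4,
    (∑ c : Fin 3, sg t c * sg t' c) = if t = t' then 3 else -1 := by decide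

/-- coordinates of the point number `x`. -/
def cor (x : ℕ) : Ix → ℤ
  | Sum.inl (g, c) =>
      if x < 256 then sg (sym x g) c
      else if (x - 256) / 4 = (g : ℕ) then 4 * sg (x % 4) c else 0
  | Sum.inr (j, c) => if x / 64 = (j : ℕ) then 2 * sg ((x / 16) % 4) c else 0

theorem sym_lt (x g : ℕ) : sym x g < 4 := Nat.mod_lt _ (by norm_num)

theorem xor_digit (a b g : ℕ) :
    ((a ^^^ b) / 4 ^ g) % 4 = 0 ↔ (a / 4 ^ g) % 4 = (b / 4 ^ g) % 4 := by
  have e : (4 : ℕ) ^ g = 2 ^ (2 * g) := by rw [pow_mul]; norm_num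
  rw [e, ← Nat.shiftRight_eq_div_pow, ← Nat.shiftRight_eq_div_pow, ← Nat.shiftRight_eq_div_pow,
    Nat.shiftRight_xor_distrib]
  rw [show (4 : ℕ) = 2 ^ 2 by norm_num, Nat.xor_mod_two_pow]
  exact Nat.xor_eq_zero_iff

theorem agr_sum (n : ℕ) : ∀ z : ℕ, (agr n z : ℤ) =
    ∑ g ∈ range n, if (z / 4 ^ g) % 4 = 0 then (1 : ℤ) else 0 := by
  induction n with
  | zero => intro z; simp [agr]
  | succ n ih =>
    intro z
    have h : agr (n + 1) z = (Bool.rec 0 1 (Nat.beq (Nat.mod z 4) 0) : ℕ) + agr n (z / 4) := rfl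
    rw [h, Finset.sum_range_succ', Nat.cast_add, ih (z / 4), add_comm]
    congr 1
    · apply Finset.sum_congr rfl
      intro g _
      rw [pow_succ, Nat.div_div_eq_div_mul, mul_comm 4 (4 ^ g)]
    · simp only [pow_zero, Nat.div_one]
      by_cases hz : z % 4 = 0
      · have : Nat.beq (Nat.mod z 4) 0 = true := by
          change Nat.beq (z % 4) 0 = true
          rw [hz]; rfl
        rw [this]; simp [hz]
      · have : Nat.beq (Nat.mod z 4) 0 = false := by
          change Nat.beq (z % 4) 0 = false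
          cases hh : Nat.beq (z % 4) 0 with
          | false => rfl
          | true => exact absurd (Nat.eq_of_beq_eq_true hh) hz
        rw [this]; simp [hz]

theorem sum_split (f : Ix → ℤ) : ∑ k : Ix, f k =
    (∑ g : Fin 16, ∑ c : Fin 3, f (Sum.inl (g, c))) +
      ∑ j : Fin 5, ∑ c : Fin 3, f (Sum.inr (j, c)) := by
  rw [Fintype.sum_sum_type, Fintype.sum_prod_type, Fintype.sum_prod_type]

theorem right_sum (x y : ℕ) (hx : x < 320) :
    (∑ j : Fin 5, ∑ c : Fin 3, cor x (Sum.inr (j, c)) * cor y (Sum.inr (j, c))) =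
      if x / 64 = y / 64 then (if (x / 16) % 4 = (y / 16) % 4 then 12 else -4) else 0 := by
  have h1 : ∀ j : Fin 5, (∑ c : Fin 3, cor x (Sum.inr (j, c)) * cor y (Sum.inr (j, c))) =
      if x / 64 = (j : ℕ) then (if y / 64 = (j : ℕ) then
        4 * (if (x / 16) % 4 = (y / 16) % 4 then (3 : ℤ) else -1) else 0) else 0 := by
    intro j
    by_cases hj : x / 64 = (j : ℕ)
    · by_cases hj' : y / 64 = (j : ℕ)
      · simp only [cor, hj, hj', if_true]
        rw [← sg_dot _ (Nat.mod_lt _ (by norm_num)) _ (Nat.mod_lt _ (by norm_num)),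
          Finset.mul_sum]
        apply Finset.sum_congr rfl
        intro c _
        ring
      · simp [cor, hj, hj']
    · simp [cor, hj]
  rw [Finset.sum_congr rfl (fun j _ => h1 j)]
  have hlt : x / 64 < 5 := by omega
  rw [Finset.sum_eq_single (⟨x / 64, hlt⟩ : Fin 5)]
  · by_cases h : x / 64 = y / 64
    · by_cases h' : (x / 16) % 4 = (y / 16) % 4
      · simp [h, h']
      · simp [h, h']
    · have h2 : ¬ y / 64 = x / 64 := fun e => h e.symm
      simp [h, h2]
  · intro b _ hb
    have : ¬ x / 64 = (b : ℕ) := by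
      intro e
      apply hb
      ext
      exact e.symm
    simp [this]
  · intro h; exact absurd (Finset.mem_univ _) h

theorem left_sum_ww (x y : ℕ) (hx : x < 256) (hy : y < 256) :
    (∑ g : Fin 16, ∑ c : Fin 3, cor x (Sum.inl (g, c)) * cor y (Sum.inl (g, c))) =
      4 * (agr 16 (wd x ^^^ wd y) : ℤ) - 16 := by
  have h1 : ∀ g : Fin 16, (∑ c : Fin 3, cor x (Sum.inl (g, c)) * cor y (Sum.inl (g, c))) =
      4 * (if ((wd x ^^^ wd y) / 4 ^ (g : ℕ)) % 4 = 0 then (1 : ℤ) else 0) - 1 := by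
    intro g
    have h2 : (∑ c : Fin 3, cor x (Sum.inl (g, c)) * cor y (Sum.inl (g, c))) =
        ∑ c : Fin 3, sg (sym x g) c * sg (sym y g) c := by
      apply Finset.sum_congr rfl
      intro c _
      simp [cor, hx, hy]
    rw [h2, sg_dot _ (sym_lt _ _) _ (sym_lt _ _)]
    have h3 := xor_digit (wd x) (wd y) g
    have h4 : sym x g = sym y g ↔ ((wd x ^^^ wd y) / 4 ^ (g : ℕ)) % 4 = 0 := h3.symm
    by_cases h : sym x g = sym y g
    · rw [if_pos h, if_pos (h4.mp h)]; norm_num
    · rw [if_neg h, if_neg (fun e => h (h4.mpr e))]; norm_num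
  rw [Finset.sum_congr rfl (fun g _ => h1 g), Finset.sum_sub_distrib, ← Finset.mul_sum, agr_sum,
    Finset.sum_range]
  simp

theorem left_sum_wf (x y : ℕ) (hx : x < 256) (hy : 256 ≤ y) (hy' : y < 320) :
    (∑ g : Fin 16, ∑ c : Fin 3, cor x (Sum.inl (g, c)) * cor y (Sum.inl (g, c))) =
      4 * (if sym x ((y - 256) / 4) = y % 4 then 3 else -1) := by
  have hlt : (y - 256) / 4 < 16 := by omega
  rw [Finset.sum_eq_single (⟨(y - 256) / 4, hlt⟩ : Fin 16)]
  · rw [← sg_dot _ (sym_lt _ _) _ (Nat.mod_lt _ (by norm_num)), Finset.mul_sum]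
    apply Finset.sum_congr rfl
    intro c _
    have : ¬ y < 256 := by omega
    simp only [cor, hx, this, if_true, if_false]
    ring
  · intro b _ hb
    have h2 : ¬ (y - 256) / 4 = (b : ℕ) := by
      intro e
      apply hb
      ext
      exact e.symm
    have : ¬ y < 256 := by omega
    apply Finset.sum_eq_zero
    intro c _
    simp [cor, hx, this, h2]
  · intro h; exact absurd (Finset.mem_univ _) h

theorem left_sum_ff (x y : ℕ) (hx : 256 ≤ x) (hx' : x < 320) (hy : 256 ≤ y) :
    (∑ g : Fin 16, ∑ c : Fin 3, cor x (Sum.inl (g, c)) * cor y (Sum.inl (g, c))) =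
      if (x - 256) / 4 = (y - 256) / 4 then 16 * (if x % 4 = y % 4 then 3 else -1) else 0 := by
  have hlt : (x - 256) / 4 < 16 := by omega
  have nx : ¬ x < 256 := by omega
  have ny : ¬ y < 256 := by omega
  rw [Finset.sum_eq_single (⟨(x - 256) / 4, hlt⟩ : Fin 16)]
  · by_cases h : (x - 256) / 4 = (y - 256) / 4
    · rw [if_pos h, ← sg_dot _ (Nat.mod_lt _ (by norm_num)) _ (Nat.mod_lt _ (by norm_num)),
        Finset.mul_sum]
      apply Finset.sum_congr rfl
      intro c _
      simp only [cor, nx, ny, if_false, if_true, h]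
      ring
    · rw [if_neg h]
      apply Finset.sum_eq_zero
      intro c _
      have h' : ¬ (y - 256) / 4 = (x - 256) / 4 := fun e => h e.symm
      simp [cor, nx, ny, h']
  · intro b _ hb
    have h2 : ¬ (x - 256) / 4 = (b : ℕ) := by
      intro e
      apply hb
      ext
      exact e.symm
    apply Finset.sum_eq_zero
    intro c _
    simp [cor, nx, h2]
  · intro h; exact absurd (Finset.mem_univ _) h

end Vale.Agent.P052
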