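import Vale.Agent.P052.Dot

/-!
# The configuration of 321 points
-/

namespace Vale.Agent.P052

open Finset

/-- support of the direction of the extra point. -/
def maskA : ℕ := 4922997352486707200

/-- integer coordinates of the direction of the extra point. -/
def ca : Ix → ℤ
  | Sum.inl (g, c) => if maskA.testBit (3 * (g : ℕ) + c) then -2 else 0
  | Sum.inr (j, c) => if maskA.testBit (48 + 3 * (j : ℕ) + c) then -2 else 0

/-- the bit of `maskZ`. -/
def bitZ (x : ℕ) : ℕ := Nat.mod (Nat.shiftRight maskZ x) 2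

theorem ca_sq : ∑ k : Ix, ca k * ca k = 52 := by
  rw [sum_split]
  decide +kernel

/-- the inner product of the direction with the point `x`, written out. -/
def dA (x : ℕ) : ℤ := -2 * (cor x (Sum.inl (4, 1)) +
    cor x (Sum.inl (5, 0)) +
    cor x (Sum.inl (6, 1)) +
    cor x (Sum.inl (7, 0)) +
    cor x (Sum.inl (8, 0)) +
    cor x (Sum.inl (9, 0)) +
    cor x (Sum.inl (10, 0)) +
    cor x (Sum.inl (11, 0)) +
    cor x (Sum.inr (0, 1)) +
    cor x (Sum.inr (1, 1)) +
    cor x (Sum.inr (2, 0)) +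
    cor x (Sum.inr (3, 1)) +
    cor x (Sum.inr (4, 2)))

theorem ok_a : allC 320 (fun x => decide (dA x = 16 * (bitZ x : ℤ) - 4)) = true := by
  decide +kernel

theorem ca_dot_eq (x : ℕ) : ∑ k : Ix, ca k * cor x k = dA x := by
  have h : ∀ k : Ix, ca k = if k ∈ ({Sum.inl (4, 1), Sum.inl (5, 0), Sum.inl (6, 1), Sum.inl (7, 0), Sum.inl (8, 0), Sum.inl (9, 0), Sum.inl (10, 0), Sum.inl (11, 0), Sum.inr (0, 1), Sum.inr (1, 1), Sum.inr (2, 0), Sum.inr (3, 1), Sum.inr (4, 2)} : Finset Ix) then -2 else 0 := by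
    decide +kernel
  have h2 : ∀ k : Ix, ca k * cor x k =
      if k ∈ ({Sum.inl (4, 1), Sum.inl (5, 0), Sum.inl (6, 1), Sum.inl (7, 0), Sum.inl (8, 0), Sum.inl (9, 0), Sum.inl (10, 0), Sum.inl (11, 0), Sum.inr (0, 1), Sum.inr (1, 1), Sum.inr (2, 0), Sum.inr (3, 1), Sum.inr (4, 2)} : Finset Ix) then -2 * cor x k else 0 := by
    intro k
    rw [h k]
    split_ifs <;> simp
  rw [Finset.sum_congr rfl (fun k _ => h2 k), ← Finset.sum_filter, Finset.filter_mem_eq_inter,
    Finset.univ_inter, ← Finset.mul_sum]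
  unfold dA
  congr 1
  rw [Finset.sum_insert, Finset.sum_insert, Finset.sum_insert, Finset.sum_insert, Finset.sum_insert, Finset.sum_insert, Finset.sum_insert, Finset.sum_insert, Finset.sum_insert, Finset.sum_insert, Finset.sum_insert, Finset.sum_insert, Finset.sum_singleton]
  · ring
  · decide +kernel
  · decide +kernel
  · decide +kernel
  · decide +kernel
  · decide +kernel
  · decide +kernel
  · decide +kernel
  · decide +kernel
  · decide +kernel
  · decide +kernel
  · decide +kernel
  · decide +kernel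

theorem ca_dot (x : ℕ) (hx : x < 320) : ∑ k : Ix, ca k * cor x k = 16 * (bitZ x : ℤ) - 4 := by
  rw [ca_dot_eq]
  exact of_decide_eq_true (allC_true _ _ ok_a x hx)

end Vale.Agent.P052
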